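import Vale.Agent.P106.R.H610.Seq

/-! # P106 / R, copy of P122 / H610 : normalised quantities of a sequence of valid structures, the counts of `RegA` (helper610)

* `Z.lg f` : limit of `f i / L i`;  `Z.OL f` : `f = O(L)`.
* `W.Jl c`, `W.θl c`, `W.X0` : normalised number of children, local gain, number of starting cells.
* `kid`, `x1`, `flag`, `L`, `B1`, `Nu0`, `N10` : the corresponding fields of `E.RegA` for `W.flg`. -/

set_option autoImplicit false

namespace Vale.Agent.P106.R.H610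

open Filter Topology Finset Vale.Agent.P127 Vale.Agent.P127.Stk Vale.Agent.P127.U Vale.Agent.P127.U.Sys
  Vale.Agent.P106.R.C2 Vale.Agent.P106.R.E

variable {K : ℕ}

/-! ### normalised limits -/

namespace CS

variable (Z : CS K)

/-- the scale -/
def L (i : ℕ) : ℝ := ((K * Z.n i : ℕ) : ℝ)

/-- `f = O(L)` -/
def OL (f : ℕ → ℝ) : Prop := UB fun i => f i / Z.L i

/-- limit of `f / L` -/
noncomputable def lg (f : ℕ → ℝ) : ℝ := ulim fun i => f i / Z.L i

variable {Z} {f g : ℕ → ℝ}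

theorem Ltop : Tendsto Z.L (uf : Filter ℕ) atTop :=
  tendsto_natCast_atTop_atTop.comp (Z.ntop.const_mul_atTop' (lt_of_lt_of_le Nat.zero_lt_one Z.K1))

theorem L_pos : ∀ᶠ i in (uf : Filter ℕ), 0 < Z.L i := Z.Ltop.eventually_gt_atTop 0

theorem n_le_L (i : ℕ) : (Z.n i : ℝ) ≤ Z.L i := by
  unfold L
  push_cast
  have h1 : (1 : ℝ) ≤ K := by exact_mod_cast Z.K1
  nlinarith [(Nat.cast_nonneg (Z.n i) : (0:ℝ) ≤ Z.n i)]

theorem L_eq (i : ℕ) : Z.L i = K * Z.n i := by
  unfold L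
  push_cast
  rfl

theorem OL.of_le {c : ℝ} (h0 : ∀ᶠ i in (uf : Filter ℕ), 0 ≤ f i) (h : ∀ᶠ i in (uf : Filter ℕ), f i ≤ c * Z.L i) :
    Z.OL f := by
  refine UB.of_le (C := c) ?_ ?_
  · filter_upwards [h0, Z.L_pos] with i h1 h2
    positivity
  · filter_upwards [h, Z.L_pos] with i h1 h2
    rwa [div_le_iff₀ h2]

theorem const_tendsto (c : ℝ) : Tendsto (fun i => c / Z.L i) (uf : Filter ℕ) (𝓝 0) := Z.Ltop.const_div_atTop c

theorem OL.const (c : ℝ) : Z.OL fun _ => c := UB.of_tendsto (const_tendsto c)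

theorem lg_const (c : ℝ) : Z.lg (fun _ => c) = 0 := ulim_eq (const_tendsto c)

theorem OL.add (hf : Z.OL f) (hg : Z.OL g) : Z.OL fun i => f i + g i := by
  unfold OL at *
  simpa only [add_div] using UB.add hf hg

theorem OL.sub (hf : Z.OL f) (hg : Z.OL g) : Z.OL fun i => f i - g i := by
  unfold OL at *
  simpa only [sub_div] using UB.sub hf hg

theorem lg_add (hf : Z.OL f) (hg : Z.OL g) : Z.lg (fun i => f i + g i) = Z.lg f + Z.lg g := by
  unfold lg
  rw [← ulim_add hf hg]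
  exact ulim_congr (Eventually.of_forall fun i => add_div _ _ _)

theorem lg_sub (hf : Z.OL f) (hg : Z.OL g) : Z.lg (fun i => f i - g i) = Z.lg f - Z.lg g := by
  unfold lg
  rw [← ulim_sub hf hg]
  exact ulim_congr (Eventually.of_forall fun i => sub_div _ _ _)

theorem OL.sum {ι : Type} (t : Finset ι) {f : ι → ℕ → ℝ} (h : ∀ j ∈ t, Z.OL (f j)) : Z.OL fun i => ∑ j ∈ t, f j i := by
  classical
  induction t using Finset.induction_on with
  | empty => simpa using OL.const (Z := Z) 0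
  | insert j t hj ih =>
    simp only [Finset.sum_insert hj]
    exact (h j (Finset.mem_insert_self _ _)).add (ih fun k hk => h k (Finset.mem_insert_of_mem hk))

theorem lg_sum {ι : Type} (t : Finset ι) {f : ι → ℕ → ℝ} (h : ∀ j ∈ t, Z.OL (f j)) :
    Z.lg (fun i => ∑ j ∈ t, f j i) = ∑ j ∈ t, Z.lg (f j) := by
  classical
  induction t using Finset.induction_on with
  | empty => simpa using lg_const (Z := Z) 0
  | insert j t hj ih =>
    simp only [Finset.sum_insert hj]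
    rw [lg_add (h j (Finset.mem_insert_self _ _)) (OL.sum t fun k hk => h k (Finset.mem_insert_of_mem hk)),
      ih fun k hk => h k (Finset.mem_insert_of_mem hk)]

theorem OL.congr (h : ∀ᶠ i in (uf : Filter ℕ), f i = g i) (hf : Z.OL f) : Z.OL g := by
  obtain ⟨c, hc⟩ := hf
  refine ⟨c, ?_⟩
  filter_upwards [hc, h] with i h1 h2
  rwa [← h2]

theorem lg_congr (h : ∀ᶠ i in (uf : Filter ℕ), f i = g i) : Z.lg f = Z.lg g :=
  ulim_congr (h.mono fun i hi => by simp only [hi])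

theorem lg_mono (hf : Z.OL f) (hg : Z.OL g) (h : ∀ᶠ i in (uf : Filter ℕ), f i ≤ g i) : Z.lg f ≤ Z.lg g :=
  ulim_le hf hg (by
    filter_upwards [h, Z.L_pos] with i h1 h2
    exact div_le_div_of_nonneg_right h1 h2.le)

/-- `f ≤ (lg f + ε) L` -/
theorem le_lg (hf : Z.OL f) {ε : ℝ} (hε : 0 < ε) : ∀ᶠ i in (uf : Filter ℕ), f i ≤ (Z.lg f + ε) * Z.L i := by
  have h := ulim_lt_eventually hf (c := Z.lg f + ε) (by unfold lg; linarith)
  filter_upwards [h, Z.L_pos] with i h1 h2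
  rw [div_lt_iff₀ h2] at h1
  exact h1.le

/-- `(lg f - ε) L ≤ f` -/
theorem lg_le (hf : Z.OL f) {ε : ℝ} (hε : 0 < ε) : ∀ᶠ i in (uf : Filter ℕ), (Z.lg f - ε) * Z.L i ≤ f i := by
  have h := lt_ulim_eventually hf (c := Z.lg f - ε) (by unfold lg; linarith)
  filter_upwards [h, Z.L_pos] with i h1 h2
  rw [lt_div_iff₀ h2] at h1
  exact h1.le

theorem le_of_ev {r : ℝ} (hf : Z.OL f) (h : ∀ ε : ℝ, 0 < ε → ∀ᶠ i in (uf : Filter ℕ), f i ≤ (r + ε) * Z.L i) :
    Z.lg f ≤ r := by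
  refine le_of_forall_pos_le_add fun ε hε => ulim_le_const hf ?_
  filter_upwards [h ε hε, Z.L_pos] with i h1 h2
  rwa [div_le_iff₀ h2]

theorem ge_of_ev {r : ℝ} (hf : Z.OL f) (h : ∀ ε : ℝ, 0 < ε → ∀ᶠ i in (uf : Filter ℕ), (r - ε) * Z.L i ≤ f i) :
    r ≤ Z.lg f := by
  refine le_of_forall_pos_le_add fun ε hε => ?_
  have : r - ε ≤ Z.lg f := by
    refine const_le_ulim hf ?_
    filter_upwards [h ε hε, Z.L_pos] with i h1 h2
    rwa [le_div_iff₀ h2]
  linarith

/-- a constant is `≤ ε L` -/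
theorem const_le (c : ℝ) {ε : ℝ} (hε : 0 < ε) : ∀ᶠ i in (uf : Filter ℕ), c ≤ ε * Z.L i := by
  filter_upwards [Z.Ltop.eventually_ge_atTop (c / ε)] with i hi
  rw [div_le_iff₀ hε] at hi
  linarith

/-! ### `Big` -/

theorem Big.pos (h : Z.Big f) : ∀ᶠ i in (uf : Filter ℕ), 0 < f i :=
  (h 1 one_pos).mono fun _ hi => lt_of_lt_of_le (by positivity) hi

theorem Big.mono (h : Z.Big f) (h' : ∀ᶠ i in (uf : Filter ℕ), f i ≤ g i) : Z.Big g := by
  intro ε hε
  filter_upwards [h ε hε, h'] with i h1 h2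
  exact h1.trans h2

theorem Big.mul (hf : Z.Big f) (hg : Z.Big g) : Z.Big fun i => f i * g i := by
  intro ε hε
  filter_upwards [hf (ε / 2) (by positivity), hg (ε / 2) (by positivity)] with i h1 h2
  have e : (2 : ℝ) ^ (-(ε * Z.n i)) = 2 ^ (-(ε / 2 * Z.n i)) * 2 ^ (-(ε / 2 * Z.n i)) := by
    rw [← Real.rpow_add (by norm_num)]
    congr 1
    ring
  rw [e]
  exact mul_le_mul h1 h2 (by positivity) (le_trans (by positivity) h1)

theorem Big.const {c : ℝ} (hc : 0 < c) : Z.Big fun _ => c := by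
  intro ε hε
  have h1 : Tendsto (fun i => ε * (Z.n i : ℝ)) (uf : Filter ℕ) atTop :=
    (tendsto_natCast_atTop_atTop.comp Z.ntop).const_mul_atTop hε
  filter_upwards [h1.eventually_ge_atTop (-Real.logb 2 c)] with i hi
  rw [← Real.le_logb_iff_rpow_le (by norm_num) hc]
  linarith

theorem Big.pow (hf : Z.Big f) (m : ℕ) : Z.Big fun i => f i ^ m := by
  induction m with
  | zero => simpa using Big.const (Z := Z) one_pos
  | succ m ih =>
    simp only [pow_succ]
    exact ih.mul hf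

/-- `- log2 f ≤ ε L` -/
theorem Big.neg_log_le (h : Z.Big f) {ε : ℝ} (hε : 0 < ε) : ∀ᶠ i in (uf : Filter ℕ), -Real.logb 2 (f i) ≤ ε * Z.L i := by
  filter_upwards [h ε hε, h.pos] with i h1 h2
  rw [← Real.le_logb_iff_rpow_le (by norm_num) h2] at h1
  have := mul_le_mul_of_nonneg_left (Z.n_le_L i) hε.le
  linarith

theorem Big.of_log (hpos : ∀ᶠ i in (uf : Filter ℕ), 0 < f i)
    (h : ∀ ε : ℝ, 0 < ε → ∀ᶠ i in (uf : Filter ℕ), -Real.logb 2 (f i) ≤ ε * Z.L i) : Z.Big f := by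
  intro ε hε
  have hK : (0 : ℝ) < K := by exact_mod_cast lt_of_lt_of_le Nat.zero_lt_one Z.K1
  filter_upwards [h (ε / K) (by positivity), hpos] with i h1 h2
  rw [← Real.le_logb_iff_rpow_le (by norm_num) h2]
  have e : ε / K * Z.L i = ε * Z.n i := by
    rw [Z.L_eq]
    field_simp
  linarith [e ▸ h1]

/-- polynomials are `2^(o(n))` -/
theorem Big.inv_lin (A B : ℝ) (hA : 0 < A) (hB : 0 ≤ B) : Z.Big fun i => (A * Z.n i + B)⁻¹ := by
  intro ε hε
  have h1 : Tendsto (fun x : ℝ => x / Real.exp (ε * Real.log 2 / 2 * x)) atTop (𝓝 0) := by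
    have := Real.tendsto_pow_mul_exp_neg_atTop_nhds_zero 1
    have h2 : Tendsto (fun x : ℝ => (ε * Real.log 2 / 2 * x)) atTop atTop :=
      tendsto_id.const_mul_atTop (by have := Real.log_pos (by norm_num : (1:ℝ) < 2); positivity)
    have h3 := (this.comp h2).const_mul (ε * Real.log 2 / 2)⁻¹
    rw [mul_zero] at h3
    refine h3.congr fun x => ?_
    have h4 : (ε * Real.log 2 / 2) ≠ 0 := by have := Real.log_pos (by norm_num : (1:ℝ) < 2); positivity
    simp only [Function.comp, pow_one, Real.exp_neg]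
    field_simp
  have hn : Tendsto (fun i => (Z.n i : ℝ)) (uf : Filter ℕ) atTop := tendsto_natCast_atTop_atTop.comp Z.ntop
  have h2 := (h1.comp hn).eventually (gt_mem_nhds (show (0:ℝ) < 1 / (A + B + 1) by positivity))
  filter_upwards [h2, hn.eventually_ge_atTop 1] with i h3 h4
  simp only [Function.comp] at h3
  rw [div_lt_div_iff₀ (Real.exp_pos _) (by positivity), one_mul] at h3
  rw [Real.rpow_neg (by norm_num)]
  refine inv_anti₀ (by positivity) ?_
  have h5 : (2 : ℝ) ^ (ε * Z.n i) = Real.exp (ε * Real.log 2 / 2 * Z.n i) * Real.exp (ε * Real.log 2 / 2 * Z.n i) := by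
    rw [Real.rpow_def_of_pos (by norm_num), ← Real.exp_add]
    congr 1
    ring
  rw [h5]
  have h6 : (1 : ℝ) ≤ Real.exp (ε * Real.log 2 / 2 * Z.n i) := by
    apply Real.one_le_exp
    have := Real.log_pos (by norm_num : (1:ℝ) < 2)
    positivity
  nlinarith

end CS

end Vale.Agent.P106.R.H610
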