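import Vale.Agent.P106.R.H610.Flags
import Vale.Agent.P127.Stk.Defs

/-! # P106 / R, copy of P122 / H610 : uniform law on a finset, number of flags through a node, uniform refinement (helper610) -/

set_option autoImplicit false

namespace Vale.Agent.P106.R.H610

open Finset Vale.Agent.P106.R.C2 Vale.Agent.P127

/-! ### uniform law on a finset -/

section law

variable {α β : Type} {T : Finset α}

/-- the uniform law on a nonempty finset -/
noncomputable def uL (T : Finset α) (h : T.Nonempty) : Law {x // x ∈ T} where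
  w := fun _ => 1 / (T.card : ℝ)
  nn := fun _ => by positivity
  sum_one := by
    rw [sum_const, card_univ, Fintype.card_coe, nsmul_eq_mul]
    have : (T.card : ℝ) ≠ 0 := by exact_mod_cast h.card_pos.ne'
    field_simp

theorem uL_w (h : T.Nonempty) (x : {x // x ∈ T}) : (uL T h).w x = 1 / (T.card : ℝ) := rfl

theorem uL_pos (h : T.Nonempty) (x : {x // x ∈ T}) : 0 < (uL T h).w x := by
  rw [uL_w]
  have : (0 : ℝ) < T.card := by exact_mod_cast h.card_pos
  positivity

open Classical in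
theorem uL_pr (h : T.Nonempty) {S : Type*} (X : {x // x ∈ T} → S) (b : S) :
    (uL T h).pr X b = ((univ.filter fun f => X f = b).card : ℝ) / T.card := by
  unfold Law.pr
  rw [sum_congr rfl fun f _ => uL_w h f, sum_const, nsmul_eq_mul]
  rw [mul_one_div]

open Classical in
theorem uL_pr' (h : T.Nonempty) {S : Type*} (g : α → S) (b : S) :
    (uL T h).pr (fun f => g f.1) b = ((T.filter fun f => g f = b).card : ℝ) / T.card := by
  rw [uL_pr]
  congr 2
  refine card_bij (fun f _ => f.1) ?_ ?_ ?_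
  · intro f hf
    rw [mem_filter] at hf ⊢
    exact ⟨f.2, hf.2⟩
  · intro f _ g _ e
    exact Subtype.ext e
  · intro f hf
    rw [mem_filter] at hf
    exact ⟨⟨f, hf.1⟩, by simp [hf.2], rfl⟩

end law

/-! ### number of flags through a node -/

/-- the number of flags through a node of level `c` -/
noncomputable def wt (V : Val) (s : Sl) (n K c : ℕ) (S : Nd) : ℕ :=
  ((Fg V s n K).filter fun f => nd s n K c f = S).card

variable {s : Sl} {n K : ℕ}

theorem wt_le {V V' : Val} (h : V'.Le V) (c : ℕ) (S : Nd) : wt V' s n K c S ≤ wt V s n K c S :=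
  card_le_card (filter_subset_filter _ (Fg_le h K))

theorem wt_le_card (V : Val) (c : ℕ) (S : Nd) : wt V s n K c S ≤ (Fg V s n K).card :=
  card_le_card (filter_subset _ _)

theorem sum_wt_le (V : Val) (c : ℕ) (U : Finset Nd) : ∑ S ∈ U, wt V s n K c S ≤ (Fg V s n K).card := by
  classical
  unfold wt
  rw [← card_biUnion]
  · refine card_le_card fun f hf => ?_
    rw [mem_biUnion] at hf
    obtain ⟨S, -, hS⟩ := hf
    exact (mem_filter.1 hS).1
  · intro S _ S' _ hne
    rw [Function.onFun, disjoint_left]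
    intro f h1 h2
    exact hne ((mem_filter.1 h1).2.symm.trans (mem_filter.1 h2).2)

theorem card_mul_le_of_wt {V : Val} {c : ℕ} {U : Finset Nd} {b : ℕ} (h : ∀ S ∈ U, b ≤ wt V s n K c S) :
    U.card * b ≤ (Fg V s n K).card := by
  refine le_trans ?_ (sum_wt_le V c U)
  rw [← smul_eq_mul]
  exact card_nsmul_le_sum _ _ _ h

section Ok

variable {C : ℝ} {F : Amp C n K} {V : Val} {ρ : ℝ} {a : ℕ → ℝ} {J : ℕ → ℕ}

/-- every flag of a higher level extends -/
theorem extend (h : V.Ok F ρ a J) {i k : ℕ} (hk : i + k ≤ K) {f : Nd × Z2} (hf : f ∈ Fg V F.s n i) :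
    ∃ y, (f.1, y) ∈ Fg V F.s n (i + k) ∧ an n k y = f.2 := by
  induction k with
  | zero => exact ⟨f.2, hf, rfl⟩
  | succ k ih =>
    obtain ⟨y, hy, e⟩ := ih (by omega)
    have h1 := (Fg_D (fun j hj => h.kid j (by omega)) h.root hy).1
    have h2 := (h.size (i + k) (by omega) _ h1).1
    obtain ⟨y', hy'⟩ : (V.G (i + k) ((pth F.s n (i + k) f.1 y).sg n)).Nonempty := by
      rw [← card_pos]
      exact lt_of_lt_of_le (by positivity) h2
    have h3 : (f.1, y') ∈ Fg V F.s n (i + k + 1) := mem_Fg_succ.2 ⟨y, hy, hy'⟩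
    have h4 := (Fg_D (fun j hj => h.kid j (by omega)) h.root hy)
    have h5 := h.kid (i + k) (by omega) _ h4.1 hy'
    rw [h4.2] at h5
    refine ⟨y', h3, ?_⟩
    rw [an_succ', par_kids h5, e]

/-- every reached node has a flag of level `K` through it -/
theorem wt_pos (h : V.Ok F ρ a J) {c : ℕ} (hc : c ≤ K) {S : Nd} (hS : S ∈ V.D F.s n c) :
    0 < wt V F.s n K c S := by
  obtain ⟨f, hf, e⟩ := exists_Fg (fun j hj => h.kid j (by omega)) h.root hS
  obtain ⟨y, hy, e2⟩ := extend h (i := c) (k := K - c) (by omega) hf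
  have e3 : c + (K - c) = K := by omega
  rw [e3] at hy
  unfold wt
  rw [card_pos]
  refine ⟨(f.1, y), mem_filter.2 ⟨hy, ?_⟩⟩
  unfold nd
  simp only
  rw [e2, e]

/-- **uniform refinement** : the number of flags (of `V`) through the nodes of level `c` of the refinement is constant -/
theorem unif_ref (h : V.Ok F ρ a J) (hρ : 0 < ρ) (w : Nd → ℝ) (hw : ∀ x ∈ V.X, 0 ≤ w x) (q : ℕ)
    (hq : (Fg V F.s n K).card < 2 ^ q) :
    ∃ (V' : Val) (J' : ℕ → ℕ) (u : ℕ → ℕ), V'.Le V ∧ V'.Ok F (ρ / (los (q + 1) n K : ℕ) ^ (K + 1)) a J' ∧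
      (∀ c, u c ≤ q) ∧
      (∀ c, c ≤ K → ∀ S ∈ V'.D F.s n c, 2 ^ u c ≤ wt V F.s n K c S ∧ wt V F.s n K c S < 2 ^ (u c + 1)) ∧
      ∑ x ∈ V.X, w x ≤ (los (q + 1) n K : ℕ) ^ (K + 1) * ∑ x ∈ V'.X, w x := by
  set ν : ℕ → Nd → Fin (q + 1) := fun c S => ⟨min (Nat.log 2 (wt V F.s n K c S)) q, by omega⟩ with hν
  obtain ⟨V', J', u, h1, h2, h3, h4⟩ := tnref (F := F) V ρ a J h hρ w hw (q + 1) (by omega) ν (K + 1) le_rfl
  refine ⟨V', J', fun c => (u c : ℕ), h1, h2, fun c => Nat.lt_succ_iff.1 (u c).2, ?_, h4⟩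
  intro c hc S hS
  have h5 := h3 c (by omega) S hS
  have h6 : min (Nat.log 2 (wt V F.s n K c S)) q = (u c : ℕ) := congrArg Fin.val h5
  have h7 : 0 < wt V F.s n K c S := wt_pos h hc (h1.D c hS)
  have h8 : Nat.log 2 (wt V F.s n K c S) ≤ q := by
    have : wt V F.s n K c S < 2 ^ q := lt_of_le_of_lt (wt_le_card V c S) hq
    exact (Nat.log_lt_of_lt_pow h7.ne' this).le
  rw [min_eq_left h8] at h6
  show 2 ^ (u c : ℕ) ≤ wt V F.s n K c S ∧ wt V F.s n K c S < 2 ^ ((u c : ℕ) + 1)
  rw [← h6]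
  exact ⟨Nat.pow_log_le_self 2 h7.ne', Nat.lt_pow_succ_log_self (by norm_num) _⟩

end Ok

end Vale.Agent.P106.R.H610
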